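import Mathlib

/-!
# Antisymmetric polynomials: dimension of the graded pieces

`S` finite, `c : S → I` a type map.  `Alt k c` = polynomials which are multiplied by the sign under
every type preserving permutation of the variables.  Its degree `n` part has as basis the
alternants, indexed by the families `F : I → Finset ℕ` with `#(F i) = #(fibre of i)` and total sum
`n`.
-/

set_option autoImplicit false
set_option linter.unusedSectionVars false
set_option linter.unusedDecidableInType false
set_option linter.unusedFintypeInType false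

open Finset MvPolynomial

namespace Vale.Agent.P066.Theta.H422

noncomputable section

variable {S I : Type} [Fintype S] [DecidableEq S] [Fintype I] [DecidableEq I]

/-- number of points of type `i` -/
def fibCard (c : S → I) (i : I) : ℕ := (univ.filter fun s => c s = i).card

/-- families of sets of exponents with total sum `n` -/
def fams (c : S → I) (n : ℕ) : Finset (I → Finset ℕ) :=
  (Fintype.piFinset fun i => (range (n + 1)).powersetCard (fibCard c i)).filter
    fun F => ∑ i, ∑ j ∈ F i, j = n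

theorem mem_fams (c : S → I) (n : ℕ) (F : I → Finset ℕ) :
    F ∈ fams c n ↔ (∀ i, (F i).card = fibCard c i) ∧ ∑ i, ∑ j ∈ F i, j = n := by
  unfold fams
  rw [mem_filter, Fintype.mem_piFinset]
  constructor
  · rintro ⟨h, h2⟩
    exact ⟨fun i => (mem_powersetCard.1 (h i)).2, h2⟩
  · rintro ⟨h, h2⟩
    refine ⟨fun i => mem_powersetCard.2 ⟨fun j hj => ?_, h i⟩, h2⟩
    rw [mem_range, Nat.lt_succ_iff, ← h2]
    calc j ≤ ∑ j ∈ F i, j := Finset.single_le_sum (f := fun j => j) (fun _ _ => Nat.zero_le _) hj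
      _ ≤ ∑ i, ∑ j ∈ F i, j :=
        Finset.single_le_sum (f := fun i => ∑ j ∈ F i, j) (fun _ _ => Nat.zero_le _) (mem_univ i)

/-- the type preserving permutations -/
def TP (c : S → I) : Finset (Equiv.Perm S) := univ.filter fun σ => ∀ s, c (σ s) = c s

theorem mem_TP (c : S → I) (σ : Equiv.Perm S) : σ ∈ TP c ↔ ∀ s, c (σ s) = c s := by
  simp [TP]

variable (k : Type) [Field k]

/-- the sign-isotypic part -/
def Alt (c : S → I) : Submodule k (MvPolynomial S k) where
  carrier := {f | ∀ σ : Equiv.Perm S, (∀ s, c (σ s) = c s) →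
    rename σ f = ((Equiv.Perm.sign σ : ℤ) : k) • f}
  add_mem' := by
    intro f g hf hg σ hσ
    rw [map_add, hf σ hσ, hg σ hσ, smul_add]
  zero_mem' := by
    intro σ _
    simp
  smul_mem' := by
    intro r f hf σ hσ
    rw [map_smul, hf σ hσ, smul_comm]

theorem mem_Alt (c : S → I) (f : MvPolynomial S k) :
    f ∈ Alt k c ↔ ∀ σ : Equiv.Perm S, (∀ s, c (σ s) = c s) →
      rename σ f = ((Equiv.Perm.sign σ : ℤ) : k) • f := Iff.rfl

/-- an exponent `S → ℕ` as a finitely supported function -/
def ex (μ : S → ℕ) : S →₀ ℕ := Finsupp.equivFunOnFinite.symm μ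

@[simp] theorem ex_apply (μ : S → ℕ) (s : S) : ex μ s = μ s := rfl

theorem ex_injective : Function.Injective (ex : (S → ℕ) → (S →₀ ℕ)) :=
  Finsupp.equivFunOnFinite.symm.injective

theorem mapDomain_ex (σ : Equiv.Perm S) (μ : S → ℕ) :
    (ex μ).mapDomain σ = ex (fun s => μ (σ.symm s)) := by
  ext s
  rw [Finsupp.mapDomain_equiv_apply, ex_apply, ex_apply]

theorem coeff_of_mem {c : S → I} {f : MvPolynomial S k} (hf : f ∈ Alt k c) (σ : Equiv.Perm S)
    (hσ : ∀ s, c (σ s) = c s) (μ : S → ℕ) :
    coeff (ex μ) f = ((Equiv.Perm.sign σ : ℤ) : k) * coeff (ex fun s => μ (σ s)) f := by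
  have h := congrArg (coeff (ex μ)) (hf σ hσ)
  have h1 : (ex fun s => μ (σ s)).mapDomain σ = ex μ := by
    rw [mapDomain_ex]
    congr 1
    funext s
    simp
  rw [← h1, coeff_rename_mapDomain _ σ.injective, h1, coeff_smul, smul_eq_mul] at h
  rw [h, ← mul_assoc, ← Int.cast_mul]
  have : ((Equiv.Perm.sign σ : ℤ) * (Equiv.Perm.sign σ : ℤ)) = 1 := by
    rw [← Units.val_mul, Int.units_mul_self, Units.val_one]
  rw [this, Int.cast_one, one_mul]

section std

variable (c : S → I) (n : ℕ)

theorem exists_std (F : I → Finset ℕ) (hF : ∀ i, (F i).card = fibCard c i) :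
    ∃ μ : S → ℕ, (∀ s, μ s ∈ F (c s)) ∧ ∀ i, ∀ j ∈ F i, ∃! s, c s = i ∧ μ s = j := by
  have h1 : ∀ i, Nonempty ({s // s ∈ univ.filter fun s => c s = i} ≃ {j // j ∈ F i}) := fun i =>
    ⟨Finset.equivOfCardEq (hF i).symm⟩
  let e' : ∀ i, {s // s ∈ univ.filter fun s => c s = i} ≃ {j // j ∈ F i} := fun i =>
    Classical.choice (h1 i)
  refine ⟨fun s => (e' (c s) ⟨s, by simp⟩ : ℕ), fun s => (e' (c s) ⟨s, by simp⟩).2, ?_⟩
  intro i j hj
  have hs : c ((e' i).symm ⟨j, hj⟩ : S) = i := by
    exact (Finset.mem_filter.1 ((e' i).symm ⟨j, hj⟩).2).2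
  refine ⟨((e' i).symm ⟨j, hj⟩ : S), ⟨hs, ?_⟩, ?_⟩
  · have key : ∀ (i' : I) (t : S) (ht : c t = i') (ht' : t ∈ univ.filter fun s => c s = i')
        (ht'' : t ∈ univ.filter fun s => c s = c t),
        ((e' (c t) ⟨t, ht''⟩ : {j // j ∈ F (c t)}) : ℕ) = (e' i' ⟨t, ht'⟩ : {j // j ∈ F i'}) := by
      intro i' t ht ht' ht''
      subst ht
      rfl
    have := key i _ hs ((e' i).symm ⟨j, hj⟩).2 (by simp)
    refine this.trans ?_
    have h3 : (⟨((e' i).symm ⟨j, hj⟩ : S), ((e' i).symm ⟨j, hj⟩).2⟩ :
        {s // s ∈ univ.filter fun s => c s = i}) = (e' i).symm ⟨j, hj⟩ := rfl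
    rw [h3, Equiv.apply_symm_apply]
  · rintro t ⟨ht, htj⟩
    subst ht
    have : e' (c t) ⟨t, by simp⟩ = ⟨j, hj⟩ := Subtype.ext htj
    rw [← this, Equiv.symm_apply_apply]

/-- the standard exponent of a family -/
def stdμ (F : {F // F ∈ fams c n}) : S → ℕ :=
  Classical.choose (exists_std c F.1 ((mem_fams c n F.1).1 F.2).1)

theorem stdμ_mem (F : {F // F ∈ fams c n}) (s : S) : stdμ c n F s ∈ F.1 (c s) :=
  (Classical.choose_spec (exists_std c F.1 ((mem_fams c n F.1).1 F.2).1)).1 s

theorem stdμ_unique (F : {F // F ∈ fams c n}) (i : I) (j : ℕ) (hj : j ∈ F.1 i) :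
    ∃! s, c s = i ∧ stdμ c n F s = j :=
  (Classical.choose_spec (exists_std c F.1 ((mem_fams c n F.1).1 F.2).1)).2 i j hj

theorem stdμ_inj (F : {F // F ∈ fams c n}) {s t : S} (h : c s = c t)
    (h2 : stdμ c n F s = stdμ c n F t) : s = t := by
  obtain ⟨u, _, hu⟩ := stdμ_unique c n F (c t) (stdμ c n F t) (stdμ_mem c n F t)
  rw [hu s ⟨h, h2⟩, hu t ⟨rfl, rfl⟩]

theorem stdμ_image (F : {F // F ∈ fams c n}) (i : I) :
    (univ.filter fun s => c s = i).image (stdμ c n F) = F.1 i := by
  ext j
  simp only [mem_image, mem_filter, mem_univ, true_and]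
  constructor
  · rintro ⟨s, hs, rfl⟩
    rw [← hs]
    exact stdμ_mem c n F s
  · intro hj
    obtain ⟨s, hs, _⟩ := stdμ_unique c n F i j hj
    exact ⟨s, hs⟩

theorem sum_stdμ (F : {F // F ∈ fams c n}) : ∑ s, stdμ c n F s = n := by
  refine Eq.trans ?_ ((mem_fams c n F.1).1 F.2).2
  rw [← Finset.sum_fiberwise univ c (stdμ c n F)]
  refine Finset.sum_congr rfl fun i _ => ?_
  rw [← stdμ_image c n F i, Finset.sum_image]
  intro s hs t ht h
  exact stdμ_inj c n F ((Finset.mem_filter.1 hs).2.trans (Finset.mem_filter.1 ht).2.symm) h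

/-- two families whose standard exponents are conjugate are equal -/
theorem std_conj (F F' : {F // F ∈ fams c n}) (σ : Equiv.Perm S) (hσ : ∀ s, c (σ s) = c s)
    (h : ∀ s, stdμ c n F' s = stdμ c n F (σ s)) : F = F' ∧ σ = 1 := by
  have h1 : F = F' := by
    refine Subtype.ext (funext fun i => ?_)
    rw [← stdμ_image c n F i, ← stdμ_image c n F' i]
    ext j
    simp only [mem_image, mem_filter, mem_univ, true_and]
    constructor
    · rintro ⟨s, hs, rfl⟩
      refine ⟨σ.symm s, ?_, ?_⟩
      · rw [← hs, ← hσ (σ.symm s), Equiv.apply_symm_apply]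
      · rw [h, Equiv.apply_symm_apply]
    · rintro ⟨s, hs, rfl⟩
      exact ⟨σ s, by rw [hσ, hs], (h s).symm⟩
  subst h1
  refine ⟨rfl, Equiv.ext fun s => ?_⟩
  rw [Equiv.Perm.coe_one, id]
  exact stdμ_inj c n F (hσ s) (h s).symm

/-- an exponent which is injective on the fibres is conjugate to a standard one -/
theorem exists_conj (μ : S → ℕ) (hμ : ∑ s, μ s = n)
    (hinj : ∀ s t, c s = c t → μ s = μ t → s = t) :
    ∃ (F : {F // F ∈ fams c n}) (σ : Equiv.Perm S), (∀ s, c (σ s) = c s) ∧
      ∀ s, μ s = stdμ c n F (σ s) := by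
  let F0 : I → Finset ℕ := fun i => (univ.filter fun s => c s = i).image μ
  have hF0 : F0 ∈ fams c n := by
    rw [mem_fams]
    have hi : ∀ i, Set.InjOn μ ((univ.filter fun s => c s = i : Finset S) : Set S) := by
      intro i s hs t ht h
      exact hinj s t ((Finset.mem_filter.1 hs).2.trans (Finset.mem_filter.1 ht).2.symm) h
    refine ⟨fun i => Finset.card_image_of_injOn (hi i), ?_⟩
    rw [← hμ, ← Finset.sum_fiberwise univ c μ]
    refine Finset.sum_congr rfl fun i _ => ?_
    rw [Finset.sum_image (hi i)]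
  let F : {F // F ∈ fams c n} := ⟨F0, hF0⟩
  have h1 : ∀ s, ∃ t, c t = c s ∧ stdμ c n F t = μ s := by
    intro s
    obtain ⟨t, ht, _⟩ := stdμ_unique c n F (c s) (μ s)
      (Finset.mem_image_of_mem μ (by simp : s ∈ univ.filter fun t => c t = c s))
    exact ⟨t, ht⟩
  choose g hg using h1
  have hginj : Function.Injective g := by
    intro s t h
    refine hinj s t ?_ ?_
    · rw [← (hg s).1, ← (hg t).1, h]
    · rw [← (hg s).2, ← (hg t).2, h]
  refine ⟨F, Equiv.ofBijective g (Finite.injective_iff_bijective.1 hginj), fun s => ?_, fun s => ?_⟩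
  · exact (hg s).1
  · exact (hg s).2.symm

end std

section dim

variable (c : S → I) (n : ℕ)

/-- the alternant of a family -/
def alt (F : {F // F ∈ fams c n}) : MvPolynomial S k :=
  ∑ σ ∈ TP c, ((Equiv.Perm.sign σ : ℤ) : k) • monomial (ex fun s => stdμ c n F (σ s)) 1

theorem alt_mem (F : {F // F ∈ fams c n}) : alt k c n F ∈ Alt k c := by
  intro τ hτ
  unfold alt
  rw [map_sum, Finset.smul_sum]
  have hτ' : ∀ s, c (τ.symm s) = c s := fun s => by
    rw [← hτ (τ.symm s), Equiv.apply_symm_apply]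
  refine Finset.sum_bij' (fun σ _ => σ * τ⁻¹) (fun σ _ => σ * τ) ?_ ?_ ?_ ?_ ?_
  · intro σ hσ
    rw [mem_TP] at hσ ⊢
    intro s
    rw [Equiv.Perm.mul_apply, hσ]
    exact hτ' s
  · intro σ hσ
    rw [mem_TP] at hσ ⊢
    intro s
    rw [Equiv.Perm.mul_apply, hσ, hτ]
  · intro σ _
    simp
  · intro σ _
    simp
  · intro σ _
    rw [map_smul, rename_monomial, mapDomain_ex, smul_smul, ← Int.cast_mul]
    congr 2
    rw [Equiv.Perm.sign_mul, Equiv.Perm.sign_inv, Units.val_mul]
    have : ((Equiv.Perm.sign τ : ℤˣ) : ℤ) * ((Equiv.Perm.sign τ : ℤˣ) : ℤ) = 1 := by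
      rw [← Units.val_mul, Int.units_mul_self, Units.val_one]
    rw [mul_left_comm, this, mul_one]

theorem degree_ex (μ : S → ℕ) : (ex μ).degree = ∑ s, μ s := by
  rw [Finsupp.degree_eq_sum]
  rfl

theorem alt_homogeneous (F : {F // F ∈ fams c n}) :
    alt k c n F ∈ homogeneousSubmodule S k n := by
  unfold alt
  refine Submodule.sum_mem _ fun σ _ => Submodule.smul_mem _ _ ?_
  rw [mem_homogeneousSubmodule]
  refine isHomogeneous_monomial _ ?_
  rw [degree_ex]
  calc ∑ s, stdμ c n F (σ s) = ∑ s, stdμ c n F s := Equiv.sum_comp σ (stdμ c n F)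
    _ = n := sum_stdμ c n F

theorem coeff_alt (F F' : {F // F ∈ fams c n}) :
    coeff (ex (stdμ c n F')) (alt k c n F) = if F = F' then 1 else 0 := by
  unfold alt
  rw [coeff_sum]
  have h1 : ∀ σ ∈ TP c, coeff (ex (stdμ c n F'))
      (((Equiv.Perm.sign σ : ℤ) : k) • monomial (ex fun s => stdμ c n F (σ s)) (1 : k)) =
      if σ = 1 then (if F = F' then 1 else 0) else 0 := by
    intro σ hσ
    rw [mem_TP] at hσ
    rw [coeff_smul, coeff_monomial]
    by_cases h : ex (fun s => stdμ c n F (σ s)) = ex (stdμ c n F')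
    · have h2 := ex_injective h
      obtain ⟨h3, h4⟩ := std_conj c n F F' σ hσ fun s => (congrFun h2 s).symm
      rw [if_pos h, if_pos h4, if_pos h3, h4]
      simp
    · rw [if_neg h]
      by_cases h2 : σ = 1
      · rw [if_pos h2]
        by_cases h3 : F = F'
        · exact absurd (by subst h2; subst h3; rfl) h
        · rw [if_neg h3]
          simp
      · rw [if_neg h2]
        simp
  rw [Finset.sum_congr rfl h1, Finset.sum_ite_eq' (TP c) 1, if_pos]
  rw [mem_TP]
  intro s
  rfl

/-- coordinates -/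
def coords : ↥(Alt k c ⊓ homogeneousSubmodule S k n) →ₗ[k] ({F // F ∈ fams c n} → k) where
  toFun f F := coeff (ex (stdμ c n F)) (f : MvPolynomial S k)
  map_add' f g := by
    funext F
    simp
  map_smul' r f := by
    funext F
    simp

theorem coords_injective [CharZero k] : Function.Injective (coords k c n) := by
  rw [← LinearMap.ker_eq_bot, LinearMap.ker_eq_bot']
  rintro ⟨f, hfA, hfh⟩ hf
  refine Subtype.ext ?_
  show f = 0
  ext d
  rw [coeff_zero]
  have hd : d = ex (fun s => d s) := by
    ext s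
    rfl
  by_cases hdeg : d.degree = n
  · by_cases hinj : ∀ s t, c s = c t → d s = d t → s = t
    · have hsum : ∑ s, d s = n := by
        rw [← hdeg, Finsupp.degree_eq_sum]
      obtain ⟨F, σ, hσ, h⟩ := exists_conj c n (fun s => d s) hsum hinj
      have h1 := coeff_of_mem k hfA σ hσ (stdμ c n F)
      have h2 : coeff (ex (stdμ c n F)) f = 0 := congrFun hf F
      rw [h2] at h1
      have h3 : (ex fun s => stdμ c n F (σ s)) = d := by
        rw [hd]
        congr 1
        funext s
        exact (h s).symm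
      rw [h3] at h1
      rcases Int.units_eq_one_or (Equiv.Perm.sign σ) with h4 | h4 <;> rw [h4] at h1 <;>
        simpa using h1.symm
    · push Not at hinj
      obtain ⟨s, t, hst, hd2, hne⟩ := hinj
      have hσ : ∀ u, c (Equiv.swap s t u) = c u := by
        intro u
        by_cases hu : u = s
        · subst hu
          rw [Equiv.swap_apply_left, hst]
        · by_cases hu2 : u = t
          · subst hu2
            rw [Equiv.swap_apply_right, hst]
          · rw [Equiv.swap_apply_of_ne_of_ne hu hu2]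
      have h1 := coeff_of_mem k hfA (Equiv.swap s t) hσ (fun s => d s)
      have h3 : (ex fun u => d (Equiv.swap s t u)) = d := by
        rw [hd]
        congr 1
        funext u
        show d (Equiv.swap s t u) = d u
        by_cases hu : u = s
        · subst hu
          rw [Equiv.swap_apply_left, hd2]
        · by_cases hu2 : u = t
          · subst hu2
            rw [Equiv.swap_apply_right, hd2]
          · rw [Equiv.swap_apply_of_ne_of_ne hu hu2]
      rw [h3, ← hd, Equiv.Perm.sign_swap hne] at h1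
      have h4 : coeff d f = - coeff d f := by simpa using h1
      have h5 : (2 : k) * coeff d f = 0 := by
        rw [two_mul]
        nth_rewrite 2 [h4]
        ring
      rcases mul_eq_zero.1 h5 with h6 | h6
      · exact absurd h6 two_ne_zero
      · exact h6
  · exact IsHomogeneous.coeff_eq_zero ((mem_homogeneousSubmodule n f).1 hfh) hdeg

theorem coords_surjective : Function.Surjective (coords k c n) := by
  intro a
  refine ⟨⟨∑ F, a F • alt k c n F, Submodule.mem_inf.2
    ⟨Submodule.sum_mem _ fun F _ => Submodule.smul_mem _ _ (alt_mem k c n F),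
    Submodule.sum_mem _ fun F _ => Submodule.smul_mem _ _ (alt_homogeneous k c n F)⟩⟩, ?_⟩
  funext F'
  show coeff (ex (stdμ c n F')) (∑ F, a F • alt k c n F) = a F'
  rw [coeff_sum]
  simp_rw [coeff_smul, coeff_alt]
  simp

/-- **Dimension of the antisymmetric polynomials of degree `n`.** -/
theorem finrank_Alt [CharZero k] :
    Module.finrank k ↥(Alt k c ⊓ homogeneousSubmodule S k n) = (fams c n).card := by
  have e := LinearEquiv.ofBijective (coords k c n) ⟨coords_injective k c n, coords_surjective k c n⟩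
  rw [e.finrank_eq, Module.finrank_fintype_fun_eq_card, Fintype.card_coe]

/-- the graded pieces are finite dimensional -/
instance [CharZero k] : Module.Finite k ↥(Alt k c ⊓ homogeneousSubmodule S k n) :=
  Module.Finite.equiv (LinearEquiv.ofBijective (coords k c n)
    ⟨coords_injective k c n, coords_surjective k c n⟩).symm

end dim

end

end Vale.Agent.P066.Theta.H422
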